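import Vale.Agent.P153.All

open Set Filter Topology Vale.Agent.P153

theorem Vale.Agent.Results.P153.Field.result :
    ∀ (ψ : ℂ → ℂ) (L : ℕ → LDom) (δ : ℕ → ℝ) (ε : ℤ), IsJordanMap ψ → Approx ψ L δ →
      (ε = 1 ∨ ε = -1) →
      (∀ n, ((L n).Hts ε).Finite ∧ ((L n).Hts ε).Nonempty) ∧
      ∃ c : ℕ → ℝ, (∀ n, 0 < c n) ∧ (∃ a b : ℝ, 0 < a ∧ ∀ n, a ≤ c n ∧ c n ≤ b) ∧
        ∀ f, IsTest ψ f →
          Tendsto (fun n => avg ((L n).Hts ε) fun h => Complex.exp (Complex.I *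
            (((L n).field (δ n) f h - avg ((L n).Hts ε) ((L n).field (δ n) f)) / c n : ℝ))) atTop
            (𝓝 (Complex.exp (-(gffVar ψ f / 2 : ℝ)))) :=
  field_all
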