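import Vale.Agent.P153.Top

open Set Filter Topology MeasureTheory ProbabilityTheory Vale.Agent.P153
open scoped NNReal

universe u

theorem Vale.Agent.Results.P153.Full.result :
    ∀ (ψ : ℂ → ℂ) (L : ℕ → LDom) (δ : ℕ → ℝ) (ε : ℤ), IsJordanMap ψ → Approx ψ L δ →
      (ε = 1 ∨ ε = -1) →
      (∀ n, ((L n).Hts ε).Finite ∧ ((L n).Hts ε).Nonempty) ∧
      (∀ f, IsTest ψ f →
        Tendsto (fun n => avg ((L n).Hts ε) ((L n).field (δ n) f)) atTop
          (𝓝 (∫ z, ε * (2 / Real.pi * Complex.arg (Complex.I *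
            (1 + Function.invFunOn ψ (Metric.ball 0 1) z) /
              (1 - Function.invFunOn ψ (Metric.ball 0 1) z)) - 1) * f z)) ∧
        Tendsto (fun n => avg ((L n).Hts ε) fun h => Complex.exp (Complex.I *
          (((L n).field (δ n) f h - avg ((L n).Hts ε) ((L n).field (δ n) f)) /
            √(8 / Real.pi) : ℝ))) atTop (𝓝 (Complex.exp (-(gffVar ψ f / 2 : ℝ))))) ∧
      (∀ᶠ n in atTop, ∀ h ∈ (L n).Hts ε,
        Continuous ((L n).iface (δ n) h) ∧ Function.Injective ((L n).iface (δ n) h) ∧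
        (L n).iface (δ n) h 0 = δ n * ((emb ((L n).β 0) + emb ((L n).β ((L n).N - 1))) / 2) ∧
        (L n).iface (δ n) h 1 = δ n * ((emb ((L n).β ((L n).k - 1)) + emb ((L n).β (L n).k)) / 2) ∧
        ∀ t, interp h ((L n).iface (δ n) h t / δ n) = 0 ∧
          (t ≠ 0 → t ≠ 1 → (L n).iface (δ n) h t / δ n ∈ (L n).dom)) ∧
      ∀ (Ω : Type u) [MeasurableSpace Ω] (P : Measure Ω) (B : ℝ≥0 → Ω → ℝ), IsBrownianReal B P →
        ∃ γ : Ω → unitInterval → ℂ,
          (∀ᵐ ω ∂P, IsTrace ψ (fun t => 2 * B t.toNNReal ω) (γ ω)) ∧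
          ∀ F : (unitInterval → ℂ) → ℝ, (∃ M, ∀ c, |F c| ≤ M) →
            (∀ c, Continuous c → ∀ e : ℝ, 0 < e → ∃ d : ℝ, 0 < d ∧
              ∀ c', Continuous c' → cdist c' c < d → |F c' - F c| < e) →
            Integrable (fun ω => F (γ ω)) P ∧
              Tendsto (fun n => avg ((L n).Hts ε) fun h => F ((L n).iface (δ n) h)) atTop
                (𝓝 (∫ ω, F (γ ω) ∂P)) :=
  full_of A2.maps_all top_out top_sle top_lat A2.s_poly
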