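import Vale.Agent.P153.Top
import Vale.Agent.P153.Dist.Cpt
import Vale.Agent.P153.Dist.Ibp2
import Vale.Agent.P153.Dist.Levy
import Vale.Agent.P153.Dist.Main
import Vale.Agent.P153.Dist.Mom
import Vale.Agent.P153.Dist.Unq

open Set Filter Topology MeasureTheory ProbabilityTheory Vale.Agent.P153
open scoped NNReal

universe u

theorem Vale.Agent.Results.P153.FullD.result :
    ∀ (ψ : ℂ → ℂ) (L : ℕ → LDom) (δ : ℕ → ℝ) (ε : ℤ), IsJordanMap ψ → Approx ψ L δ →
      (ε = 1 ∨ ε = -1) →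
      (∀ n, ((L n).Hts ε).Finite ∧ ((L n).Hts ε).Nonempty) ∧
      (∀ f, IsTest ψ f →
        Tendsto (fun n => avg ((L n).Hts ε) ((L n).field (δ n) f)) atTop
          (𝓝 (∫ z, ε * (2 / Real.pi * Complex.arg (Complex.I *
            (1 + Function.invFunOn ψ (Metric.ball 0 1) z) /
              (1 - Function.invFunOn ψ (Metric.ball 0 1) z)) - 1) * f z))) ∧
      (∃ D : TopologicalSpace.Opens ℂ, (D : Set ℂ) = ψ '' Metric.ball 0 1 ∧
        ∀ [MeasurableSpace (Distribution D ℝ ⊤)] [BorelSpace (Distribution D ℝ ⊤)],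
          ∃ (X : ℕ → (V → ℤ) → Distribution D ℝ ⊤) (μ : Measure (Distribution D ℝ ⊤)),
            (∀ n, ∀ h ∈ (L n).Hts ε, ∀ f : TestFunction D ℝ ⊤, X n h f =
              ((L n).field (δ n) f h - avg ((L n).Hts ε) ((L n).field (δ n) f)) /
                √(8 / Real.pi)) ∧
            IsProbabilityMeasure μ ∧
            (∀ f : TestFunction D ℝ ⊤, 0 ≤ gffVar ψ f ∧
              μ.map (fun T => T f) = gaussianReal 0 (gffVar ψ f).toNNReal) ∧
            ∀ G : BoundedContinuousFunction (Distribution D ℝ ⊤) ℝ,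
              Tendsto (fun n => avg ((L n).Hts ε) fun h => G (X n h)) atTop (𝓝 (∫ T, G T ∂μ))) ∧
      (∀ᶠ n in atTop, ∀ h ∈ (L n).Hts ε,
        Continuous ((L n).iface (δ n) h) ∧ Function.Injective ((L n).iface (δ n) h) ∧
        (L n).iface (δ n) h 0 = δ n * ((emb ((L n).β 0) + emb ((L n).β ((L n).N - 1))) / 2) ∧
        (L n).iface (δ n) h 1 = δ n * ((emb ((L n).β ((L n).k - 1)) + emb ((L n).β (L n).k)) / 2) ∧
        ∀ t, interp h ((L n).iface (δ n) h t / δ n) = 0 ∧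
          (t ≠ 0 → t ≠ 1 → (L n).iface (δ n) h t / δ n ∈ (L n).dom)) ∧
      ∀ (Ω : Type u) [MeasurableSpace Ω] (P : Measure Ω) (B : ℝ≥0 → Ω → ℝ), IsBrownianReal B P →
        ∃ γ : Ω → unitInterval → ℂ,
          (∀ᵐ ω ∂P, IsTrace ψ (fun t => 2 * B t.toNNReal ω) (γ ω)) ∧
          ∀ F : (unitInterval → ℂ) → ℝ, (∃ M, ∀ c, |F c| ≤ M) →
            (∀ c, Continuous c → ∀ e : ℝ, 0 < e → ∃ d : ℝ, 0 < d ∧
              ∀ c', Continuous c' → cdist c' c < d → |F c' - F c| < e) →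
            Integrable (fun ω => F (γ ω)) P ∧
              Tendsto (fun n => avg ((L n).Hts ε) fun h => F ((L n).iface (δ n) h)) atTop
                (𝓝 (∫ ω, F (γ ω) ∂P)) := fun ψ L δ ε hψ hA hε =>
  have h := full_of A2.maps_all top_out top_sle top_lat A2.s_poly ψ L δ ε hψ hA hε
  ⟨h.1, fun f hf => (h.2.1 f hf).1, ⟨⟨_, (Wick.s_conf ψ hψ).1⟩, rfl, Dist.dist_of
    (Dist.s_levy Dist.s_cpt Dist.s_unq) Dist.s_ibp2 Dist.s_int (Dist.s_mom App2.l_mb_all) hψ hA hε h.1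
    (Real.sqrt_pos.2 (by positivity)) (fun f hf => (h.2.1 f hf).2) _ rfl⟩, h.2.2⟩
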